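import Vale.Agent.P312.Final

/-! One-tape time `t` is contained in space `t ^ (2 / 5) * log t`. -/

namespace Vale.Agent.Results.P312.TwoFifths

open Vale.Agent.P312

theorem result :
    (∀ (A : Type) [Finite A] (t : ℕ → ℕ) (L : Set (List A)), TIME₁ t L →
      SPACE (fun n => (t n : ℝ) ^ (2 / 5 : ℝ) * Real.log ((t n : ℝ) + 2)) L) ∧
    (∀ e : ℝ, 2 / 5 < e → ∀ (A : Type) [Finite A] (t : ℕ → ℕ) (L : Set (List A)), TIME₁ t L →
      SPACE (fun n => (t n : ℝ) ^ e) L) ∧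
    ∃ η : ℝ, 0 < η ∧ ∀ (A : Type) [Finite A] (t : ℕ → ℕ) (L : Set (List A)), TIME₁ t L →
      SPACE (fun n => (t n : ℝ) ^ (1 / 2 - η)) L :=
  ⟨fun _ _ => space_log, fun e he _ _ => space_pow e he,
    1 / 20, by norm_num, fun _ _ => space_pow _ (by norm_num)⟩

end Vale.Agent.Results.P312.TwoFifths
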